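import Crest.Agent.KK.Thm
import Crest.Prelude.Def_RandomGraph

set_option autoImplicit false

/-!
# From the weights `wt` to `Crest.FinProb.bernoulliProb`
-/

namespace Crest.Agent.KK

open Finset
open scoped Classical

variable {X : Type*} [DecidableEq X] [Fintype X]

/-- the set of coins showing `true`. -/
def supp (ω : X → Bool) : Finset X := Finset.univ.filter (fun x => ω x = true)

lemma mem_supp {ω : X → Bool} {x : X} : x ∈ supp ω ↔ ω x = true := by simp [supp]

lemma bernoulliWeight_eq (p : ℝ) (ω : X → Bool) :
    Crest.FinProb.bernoulliWeight p ω = wt p (supp ω) := by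
  unfold Crest.FinProb.bernoulliWeight wt
  apply Finset.prod_congr rfl
  intro x _
  simp only [mem_supp]

/-- outcomes correspond to subsets. -/
def suppEquiv : (X → Bool) ≃ Finset X where
  toFun := supp
  invFun W := fun x => decide (x ∈ W)
  left_inv ω := by
    funext x
    simp [mem_supp]
  right_inv W := by
    ext x
    simp [mem_supp]

lemma bernoulliProb_eq (p : ℝ) (P : Finset X → Prop) :
    Crest.FinProb.bernoulliProb p {ω : X → Bool | P (supp ω)} =
      ∑ W : Finset X, wt p W * (if P W then 1 else 0) := by
  unfold Crest.FinProb.bernoulliProb
  rw [Finset.sum_filter]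
  rw [← Equiv.sum_comp (suppEquiv (X := X))]
  apply Finset.sum_congr rfl
  intro ω _
  have : suppEquiv ω = supp ω := rfl
  rw [this, bernoulliWeight_eq]
  by_cases h : P (supp ω)
  · simp [h]
  · simp [h]

lemma bernoulliProb_succ (p : ℝ) (HH : Finset (Finset X)) :
    Crest.FinProb.bernoulliProb p {ω : X → Bool | Succ HH (supp ω)} = prS HH p :=
  bernoulliProb_eq p (Succ HH)

lemma bernoulliExpect_eq (p : ℝ) (f : Finset X → ℝ) :
    ∑ ω : X → Bool, Crest.FinProb.bernoulliWeight p ω * f (supp ω) =
      ∑ W : Finset X, wt p W * f W := by
  rw [← Equiv.sum_comp (suppEquiv (X := X))]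
  apply Finset.sum_congr rfl
  intro ω _
  have : suppEquiv ω = supp ω := rfl
  rw [this, bernoulliWeight_eq]

/-- the probability that a fixed set is contained in the sample. -/
lemma sum_wt_superset (p : ℝ) (A : Finset X) :
    ∑ W : Finset X, wt p W * (if A ⊆ W then 1 else 0) = p ^ A.card := by
  -- `W ⊇ A` iff `W = A ∪ W'`; use the union lemma with the deterministic density
  have key : ∀ s : Finset X, ∀ A ⊆ s,
      ∑ W ∈ s.powerset, wtS s p W * (if A ⊆ W then (1 : ℝ) else 0) = p ^ A.card := by
    intro s
    induction s using Finset.induction_on with
    | empty =>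
      intro A hA
      have : A = ∅ := Finset.subset_empty.mp hA
      subst this
      simp [wtS]
    | insert a s ha ih =>
      intro A hA
      rw [Finset.sum_powerset_insert ha]
      by_cases haA : a ∈ A
      · have h1 : ∑ W ∈ s.powerset, wtS (insert a s) p W * (if A ⊆ W then (1 : ℝ) else 0) = 0 := by
          apply Finset.sum_eq_zero
          intro W hW
          have : ¬ A ⊆ W := fun h => ha (Finset.mem_powerset.mp hW (h haA))
          simp [this]
        have hA' : A.erase a ⊆ s := by
          intro x hx
          have hx1 := Finset.mem_of_mem_erase hx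
          have hx2 := Finset.ne_of_mem_erase hx
          rcases Finset.mem_insert.mp (hA hx1) with h | h
          · exact absurd h hx2
          · exact h
        have h2 : ∑ W ∈ s.powerset, wtS (insert a s) p (insert a W) *
            (if A ⊆ insert a W then (1 : ℝ) else 0) =
            p * ∑ W ∈ s.powerset, wtS s p W * (if A.erase a ⊆ W then (1 : ℝ) else 0) := by
          rw [Finset.mul_sum]
          apply Finset.sum_congr rfl
          intro W _
          rw [wtS_insert_insert ha]
          have : (A ⊆ insert a W) ↔ (A.erase a ⊆ W) := by
            rw [Finset.subset_insert_iff]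
          simp only [this]
          ring
        rw [h1, h2, ih _ hA', Finset.card_erase_of_mem haA]
        have hpos : 0 < A.card := Finset.card_pos.mpr ⟨a, haA⟩
        have : A.card = (A.card - 1) + 1 := by omega
        conv_rhs => rw [this, pow_succ]
        ring
      · have hA' : A ⊆ s := by
          intro x hx
          rcases Finset.mem_insert.mp (hA hx) with h | h
          · exact absurd (h ▸ hx) haA
          · exact h
        have h1 : ∑ W ∈ s.powerset, wtS (insert a s) p W * (if A ⊆ W then (1 : ℝ) else 0) =
            (1 - p) * ∑ W ∈ s.powerset, wtS s p W * (if A ⊆ W then (1 : ℝ) else 0) := by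
          rw [Finset.mul_sum]
          apply Finset.sum_congr rfl
          intro W hW
          rw [wtS_insert_of_notMem ha p (Finset.mem_powerset.mp hW)]
          ring
        have h2 : ∑ W ∈ s.powerset, wtS (insert a s) p (insert a W) *
            (if A ⊆ insert a W then (1 : ℝ) else 0) =
            p * ∑ W ∈ s.powerset, wtS s p W * (if A ⊆ W then (1 : ℝ) else 0) := by
          rw [Finset.mul_sum]
          apply Finset.sum_congr rfl
          intro W _
          rw [wtS_insert_insert ha]
          have : (A ⊆ insert a W) ↔ (A ⊆ W) := by
            rw [Finset.subset_insert_iff, Finset.erase_eq_of_notMem haA]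
          simp only [this]
          ring
        rw [h1, h2, ih _ hA']
        ring
  have h := key Finset.univ A (Finset.subset_univ _)
  rw [Finset.powerset_univ] at h
  exact h

end Crest.Agent.KK
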