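import Crest.Agent.KK.Graph

set_option autoImplicit false

/-!
# Translation of the hypothesis of S0076: expected number of copies of a subgraph
-/

namespace Crest.Agent.KK

open Finset Crest.CombinatoricsR.RandomGraph
open scoped Classical

variable {n : ℕ} {V : Type} [Fintype V] [DecidableEq V] (H : SimpleGraph V) [DecidableRel H.Adj]

/-- the edge slots of the image of the edge set `E'` under `σ`. -/
noncomputable def imgE (E' : Finset (Sym2 V)) (σ : V → Fin n) : Finset (EdgeSlot n) :=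
  Finset.univ.filter (fun z => z.1 ∈ E'.image (Sym2.map σ))

/-- the subgraph of `H` spanned by a set of edges. -/
def subOf (E' : Finset (Sym2 V)) (hE : E' ⊆ H.edgeFinset) : H.Subgraph where
  verts := {v | ∃ w, s(v, w) ∈ E'}
  Adj a b := s(a, b) ∈ E'
  adj_sub := by
    intro a b h
    have := hE h
    rwa [SimpleGraph.mem_edgeFinset, SimpleGraph.mem_edgeSet] at this
  edge_vert := by
    intro a b h
    exact ⟨b, h⟩
  symm := ⟨by
    intro a b h
    rwa [Sym2.eq_swap]⟩

/-- the edge slots of a subgraph of a graph on `Fin n`. -/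
noncomputable def slots {G : SimpleGraph (Fin n)} (G' : G.Subgraph) : Finset (EdgeSlot n) :=
  Finset.univ.filter (fun z => z.1 ∈ G'.edgeSet)

lemma exists_inj_extend (hV : Fintype.card V ≤ n) (s : Set V) (f : V → Fin n)
    (hf : Set.InjOn f s) : ∃ σ : V → Fin n, Function.Injective σ ∧ ∀ v ∈ s, σ v = f v := by
  have h1 : (s.toFinset.image f).card ≤ Fintype.card V :=
    Finset.card_image_le.trans (Finset.card_le_univ _)
  obtain ⟨t, ht, hcard⟩ := Finset.exists_superset_card_eq h1 (by simpa using hV)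
  have hmaps : s.MapsTo f t := by
    intro v hv
    exact ht (Finset.mem_image.mpr ⟨v, by simpa using hv, rfl⟩)
  obtain ⟨g, hg⟩ := Set.MapsTo.exists_equiv_extend_of_card_eq hcard.symm hmaps hf
  refine ⟨fun v => (g v : Fin n), ?_, hg⟩
  intro a b hab
  exact g.injective (Subtype.ext hab)

lemma card_imgE (E' : Finset (Sym2 V)) (hE : E' ⊆ H.edgeFinset) {σ : V → Fin n}
    (hσ : Function.Injective σ) : (imgE E' σ).card = E'.card := by
  have h1 : (E'.image (Sym2.map σ)).card = E'.card :=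
    Finset.card_image_of_injective _ (Sym2.map.injective hσ)
  rw [← h1]
  apply Finset.card_bij (fun z _ => z.1)
  · intro z hz
    exact (Finset.mem_filter.mp hz).2
  · intro z _ z' _ h
    exact Subtype.ext h
  · intro e he
    obtain ⟨e0, he0, rfl⟩ := Finset.mem_image.mp he
    have hnd : ¬ e0.IsDiag := by
      have := hE he0
      rw [SimpleGraph.mem_edgeFinset] at this
      exact H.not_isDiag_of_mem_edgeSet this
    have hnd' : ¬ (Sym2.map σ e0).IsDiag := by
      induction e0 using Sym2.ind with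
      | _ a b =>
        simp only [Sym2.map_mk, Sym2.mk_isDiag_iff] at hnd ⊢
        exact fun h => hnd (hσ h)
    exact ⟨⟨Sym2.map σ e0, hnd'⟩, Finset.mem_filter.mpr ⟨Finset.mem_univ _, he⟩, rfl⟩

lemma mem_slots {G : SimpleGraph (Fin n)} {G' : G.Subgraph} {z : EdgeSlot n} :
    z ∈ slots G' ↔ z.1 ∈ G'.edgeSet := by simp [slots]

lemma mem_imgE {E' : Finset (Sym2 V)} {σ : V → Fin n} {z : EdgeSlot n} :
    z ∈ imgE E' σ ↔ ∃ e ∈ E', Sym2.map σ e = z.1 := by simp [imgE]

/-- a subgraph isomorphic to `subOf H E'` is the image of `E'` under an injective vertex map. -/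
lemma slots_eq_imgE (hV : Fintype.card V ≤ n) (E' : Finset (Sym2 V)) (hE : E' ⊆ H.edgeFinset)
    {G : SimpleGraph (Fin n)} (G' : G.Subgraph) (e : (subOf H E' hE).coe ≃g G'.coe) :
    ∃ σ ∈ injs V n, slots G' = imgE E' σ := by
  obtain ⟨σ0, _⟩ := injs_nonempty (V := V) hV
  set F := subOf H E' hE with hF
  set f : V → Fin n := fun v => if hv : v ∈ F.verts then ((e ⟨v, hv⟩ : G'.verts) : Fin n) else σ0 v
    with hf
  have hfv : ∀ (v : V) (hv : v ∈ F.verts), f v = ((e ⟨v, hv⟩ : G'.verts) : Fin n) := by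
    intro v hv
    simp only [hf, dif_pos hv]
  have hinj : Set.InjOn f F.verts := by
    intro a ha b hb hab
    rw [hfv a ha, hfv b hb] at hab
    have := e.injective (Subtype.ext hab)
    exact congrArg Subtype.val this
  obtain ⟨σ, hσ, hσf⟩ := exists_inj_extend hV F.verts f hinj
  refine ⟨σ, mem_injs.mpr hσ, ?_⟩
  ext z
  rw [mem_slots, mem_imgE]
  constructor
  · intro hz
    obtain ⟨z1, hz1⟩ := z
    induction z1 using Sym2.ind with
    | _ a b =>
      have hab : G'.Adj a b := hz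
      have ha : a ∈ G'.verts := G'.edge_vert hab
      have hb : b ∈ G'.verts := G'.edge_vert hab.symm
      set a' := e.symm ⟨a, ha⟩ with ha'
      set b' := e.symm ⟨b, hb⟩ with hb'
      have hadj : F.coe.Adj a' b' := by
        rw [ha', hb', e.symm.map_adj_iff]
        exact hab
      have hadj2 : s((a' : V), (b' : V)) ∈ E' := hadj
      refine ⟨s((a' : V), (b' : V)), hadj2, ?_⟩
      have e1 : σ a' = a := by
        rw [hσf _ a'.2, hfv _ a'.2]
        simp [ha']
      have e2 : σ b' = b := by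
        rw [hσf _ b'.2, hfv _ b'.2]
        simp [hb']
      simp [e1, e2]
  · rintro ⟨e0, he0, hz⟩
    rw [← hz]
    induction e0 using Sym2.ind with
    | _ a b =>
      have hab : F.Adj a b := he0
      have ha : a ∈ F.verts := F.edge_vert hab
      have hb : b ∈ F.verts := F.edge_vert hab.symm
      have hadj : F.coe.Adj ⟨a, ha⟩ ⟨b, hb⟩ := hab
      have h2 : G'.coe.Adj (e ⟨a, ha⟩) (e ⟨b, hb⟩) := e.map_adj_iff.mpr hadj
      have h3 : G'.Adj (σ a) (σ b) := by
        rw [hσf _ ha, hσf _ hb, hfv _ ha, hfv _ hb]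
        exact h2
      simpa using h3

lemma no_isolated (E' : Finset (Sym2 V)) (hE : E' ⊆ H.edgeFinset)
    {G : SimpleGraph (Fin n)} (G' : G.Subgraph) (e : (subOf H E' hE).coe ≃g G'.coe) :
    ∀ v ∈ G'.verts, ∃ w, G'.Adj v w := by
  intro v hv
  set F := subOf H E' hE with hF
  set v' := e.symm ⟨v, hv⟩ with hv'
  obtain ⟨w', hw'⟩ : ∃ w, s((v' : V), w) ∈ E' := v'.2
  have hab : F.Adj v' w' := hw'
  have hb : w' ∈ F.verts := F.edge_vert hab.symm
  have hadj : F.coe.Adj v' ⟨w', hb⟩ := hab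
  have h2 : G'.coe.Adj (e v') (e ⟨w', hb⟩) := e.map_adj_iff.mpr hadj
  refine ⟨(e ⟨w', hb⟩ : G'.verts), ?_⟩
  have : (e v' : G'.verts) = ⟨v, hv⟩ := by simp [hv']
  rw [this] at h2
  exact h2

lemma subgraph_eq_of_slots {G : SimpleGraph (Fin n)} (G1 G2 : G.Subgraph)
    (h1 : ∀ v ∈ G1.verts, ∃ w, G1.Adj v w) (h2 : ∀ v ∈ G2.verts, ∃ w, G2.Adj v w)
    (hs : slots G1 = slots G2) : G1 = G2 := by
  have key : ∀ (A B : G.Subgraph), slots A = slots B → ∀ a b, A.Adj a b → B.Adj a b := by
    intro A B hAB a b hab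
    have hne : a ≠ b := (A.adj_sub hab).ne
    have hd : ¬ (s(a, b) : Sym2 (Fin n)).IsDiag := by simpa using hne
    have hm : (⟨s(a, b), hd⟩ : EdgeSlot n) ∈ slots A := mem_slots.mpr hab
    rw [hAB] at hm
    exact mem_slots.mp hm
  have hadj : G1.Adj = G2.Adj := by
    funext a b
    exact propext ⟨key G1 G2 hs a b, key G2 G1 hs.symm a b⟩
  apply SimpleGraph.Subgraph.ext _ hadj
  ext v
  constructor
  · intro hv
    obtain ⟨w, hw⟩ := h1 v hv
    exact G2.edge_vert (hadj ▸ hw)
  · intro hv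
    obtain ⟨w, hw⟩ := h2 v hv
    exact G1.edge_vert (hadj ▸ hw)

lemma slots_subset_supp (ω : EdgeSlot n → Bool) (G' : (graphOf ω).Subgraph) :
    slots G' ⊆ supp ω := by
  intro z hz
  obtain ⟨z1, hz1⟩ := z
  induction z1 using Sym2.ind with
  | _ a b =>
    have hab : G'.Adj a b := mem_slots.mp hz
    obtain ⟨h, hω⟩ := (graphOf_adj ω a b).mp (G'.adj_sub hab)
    exact mem_supp.mpr hω

lemma copyCount_le (hV : Fintype.card V ≤ n) (E' : Finset (Sym2 V)) (hE : E' ⊆ H.edgeFinset)
    (ω : EdgeSlot n → Bool) :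
    (graphOf ω).copyCount (subOf H E' hE).coe ≤
      (((injs V n).image (imgE E')).filter (fun T => T ⊆ supp ω)).card := by
  unfold SimpleGraph.copyCount
  apply Finset.card_le_card_of_injOn (fun G' => slots G')
  · intro G' hG'
    obtain ⟨e⟩ := (Finset.mem_filter.mp hG').2
    obtain ⟨σ, hσ, hs⟩ := slots_eq_imgE H hV E' hE G' e
    rw [Finset.mem_coe, Finset.mem_filter]
    exact ⟨Finset.mem_image.mpr ⟨σ, hσ, hs.symm⟩, slots_subset_supp ω G'⟩
  · intro G1 hG1 G2 hG2 hs
    obtain ⟨e1⟩ := (Finset.mem_filter.mp hG1).2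
    obtain ⟨e2⟩ := (Finset.mem_filter.mp hG2).2
    exact subgraph_eq_of_slots G1 G2 (no_isolated H E' hE G1 e1) (no_isolated H E' hE G2 e2) hs

/-- **Translation of the hypothesis of S0076.** -/
theorem expect_le (hV : Fintype.card V ≤ n) {p : ℝ} (hp0 : 0 ≤ p) (hp1 : p ≤ 1)
    (E' : Finset (Sym2 V)) (hE : E' ⊆ H.edgeFinset) :
    gnpExpect n p (fun G => (G.copyCount (subOf H E' hE).coe : ℝ)) ≤
      (((injs V n).image (imgE E')).card : ℝ) * p ^ E'.card := by
  unfold gnpExpect
  set IM := (injs V n).image (imgE E') with hIM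
  have h1 : ∑ ω : EdgeSlot n → Bool, Crest.FinProb.bernoulliWeight p ω *
      ((graphOf ω).copyCount (subOf H E' hE).coe : ℝ) ≤
      ∑ ω : EdgeSlot n → Bool, Crest.FinProb.bernoulliWeight p ω *
        (∑ T ∈ IM, if T ⊆ supp ω then (1 : ℝ) else 0) := by
    apply Finset.sum_le_sum
    intro ω _
    apply mul_le_mul_of_nonneg_left
    · have := copyCount_le H hV E' hE ω
      rw [Finset.card_filter] at this
      have h2 : ((graphOf ω).copyCount (subOf H E' hE).coe : ℝ) ≤
          ((∑ T ∈ IM, if T ⊆ supp ω then 1 else 0 : ℕ) : ℝ) := by exact_mod_cast this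
      refine h2.trans (le_of_eq ?_)
      push_cast
      rfl
    · rw [bernoulliWeight_eq]
      exact wt_nonneg hp0 hp1 _
  have h2 := bernoulliExpect_eq p
    (fun W : Finset (EdgeSlot n) => ∑ T ∈ IM, if T ⊆ W then (1 : ℝ) else 0)
  have h3 : ∑ W : Finset (EdgeSlot n), wt p W * (∑ T ∈ IM, if T ⊆ W then (1 : ℝ) else 0) =
      (IM.card : ℝ) * p ^ E'.card := by
    simp only [Finset.mul_sum]
    rw [Finset.sum_comm]
    have : ∀ T ∈ IM, ∑ W : Finset (EdgeSlot n), wt p W * (if T ⊆ W then (1 : ℝ) else 0) =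
        p ^ E'.card := by
      intro T hT
      obtain ⟨σ, hσ, rfl⟩ := Finset.mem_image.mp hT
      rw [sum_wt_superset, card_imgE H E' hE (mem_injs.mp hσ)]
    rw [Finset.sum_congr rfl this, Finset.sum_const, nsmul_eq_mul]
  calc _ ≤ _ := h1
    _ = _ := h2
    _ = _ := h3

end Crest.Agent.KK
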