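import Crest.Agent.KK.Weight

set_option autoImplicit false

/-!
# Fragments and the Park--Pham counting lemma (binomial model)
-/

namespace Crest.Agent.KK

open Finset
open scoped Classical

variable {X : Type*} [DecidableEq X] [Fintype X]

/-- `W` contains a member of the family. -/
def Succ (HH : Finset (Finset X)) (W : Finset X) : Prop := ∃ S ∈ HH, S ⊆ W

/-- every member of `HH` contains a member of `GG`. -/
def Covers (GG HH : Finset (Finset X)) : Prop := ∀ S ∈ HH, ∃ U ∈ GG, U ⊆ S

/-- the cost of a family at density `q`. -/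
noncomputable def cost (q : ℝ) (GG : Finset (Finset X)) : ℝ := ∑ U ∈ GG, q ^ U.card

/-- `T` is an inclusion-minimal set outside `W` whose addition to `W` gives a member of `HH`. -/
def IsFrag (HH : Finset (Finset X)) (W T : Finset X) : Prop :=
  Disjoint T W ∧ Succ HH (W ∪ T) ∧ ∀ S ∈ HH, S ⊆ W ∪ T → T ⊆ S

/-- the fragments of `HH` with respect to `W`. -/
noncomputable def frags (HH : Finset (Finset X)) (W : Finset X) : Finset (Finset X) :=
  Finset.univ.filter (fun T => IsFrag HH W T)

lemma mem_frags {HH : Finset (Finset X)} {W T : Finset X} : T ∈ frags HH W ↔ IsFrag HH W T := by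
  simp [frags]

lemma Succ.mono {HH : Finset (Finset X)} {W W' : Finset X} (h : Succ HH W) (hs : W ⊆ W') :
    Succ HH W' := by
  obtain ⟨S, hS, hSW⟩ := h
  exact ⟨S, hS, hSW.trans hs⟩

lemma exists_frag (HH : Finset (Finset X)) (W : Finset X) {S : Finset X} (hS : S ∈ HH) :
    ∃ T, IsFrag HH W T ∧ T ⊆ S := by
  set C : Finset (Finset X) := (S \ W).powerset.filter (fun T => Succ HH (W ∪ T)) with hC
  have hne : C.Nonempty := by
    refine ⟨S \ W, ?_⟩
    rw [hC, Finset.mem_filter, Finset.mem_powerset]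
    refine ⟨subset_rfl, S, hS, ?_⟩
    intro x hx
    by_cases hxW : x ∈ W
    · exact Finset.mem_union_left _ hxW
    · exact Finset.mem_union_right _ (Finset.mem_sdiff.mpr ⟨hx, hxW⟩)
  obtain ⟨T, hT, hmin⟩ := Finset.exists_min_image C Finset.card hne
  rw [hC, Finset.mem_filter, Finset.mem_powerset] at hT
  obtain ⟨hTS, hTsucc⟩ := hT
  refine ⟨T, ⟨?_, hTsucc, ?_⟩, hTS.trans Finset.sdiff_subset⟩
  · rw [Finset.disjoint_left]
    intro x hx
    exact (Finset.mem_sdiff.mp (hTS hx)).2
  · intro S' hS' hS'W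
    have hsub : S' \ W ⊆ T := by
      intro x hx
      obtain ⟨hx1, hx2⟩ := Finset.mem_sdiff.mp hx
      rcases Finset.mem_union.mp (hS'W hx1) with h | h
      · exact absurd h hx2
      · exact h
    have hmem : S' \ W ∈ C := by
      rw [hC, Finset.mem_filter, Finset.mem_powerset]
      refine ⟨hsub.trans hTS, S', hS', ?_⟩
      intro x hx
      by_cases hxW : x ∈ W
      · exact Finset.mem_union_left _ hxW
      · exact Finset.mem_union_right _ (Finset.mem_sdiff.mpr ⟨hx, hxW⟩)
    have hcard := hmin _ hmem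
    have heq : S' \ W = T := Finset.eq_of_subset_of_card_le hsub hcard
    rw [← heq]
    exact Finset.sdiff_subset

lemma IsFrag.exists_superset {HH : Finset (Finset X)} {W T : Finset X} (h : IsFrag HH W T) :
    ∃ S ∈ HH, T ⊆ S := by
  obtain ⟨_, ⟨S, hS, hSW⟩, h3⟩ := h
  exact ⟨S, hS, h3 S hS hSW⟩

lemma IsFrag.card_le {HH : Finset (Finset X)} {W T : Finset X} (h : IsFrag HH W T) {l : ℕ}
    (hl : ∀ S ∈ HH, S.card ≤ l) : T.card ≤ l := by
  obtain ⟨S, hS, hTS⟩ := h.exists_superset
  exact (Finset.card_le_card hTS).trans (hl S hS)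

/-- a fixed member of `HH` inside `Z` (junk `∅` if there is none). -/
noncomputable def chi (HH : Finset (Finset X)) (Z : Finset X) : Finset X :=
  if h : Succ HH Z then h.choose else ∅

lemma chi_spec {HH : Finset (Finset X)} {Z : Finset X} (h : Succ HH Z) :
    chi HH Z ∈ HH ∧ chi HH Z ⊆ Z := by
  unfold chi
  rw [dif_pos h]
  exact h.choose_spec

lemma chi_card_le {HH : Finset (Finset X)} {l : ℕ} (hl : ∀ S ∈ HH, S.card ≤ l) (Z : Finset X) :
    (chi HH Z).card ≤ l := by
  by_cases h : Succ HH Z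
  · exact hl _ (chi_spec h).1
  · unfold chi; rw [dif_neg h]; simp

/-- **Counting lemma.** The expected cost of the fragments of size at least `m0`. -/
lemma frag_cost (HH : Finset (Finset X)) (l m0 : ℕ) (hl : ∀ S ∈ HH, S.card ≤ l)
    {q p' : ℝ} (hq : 0 ≤ q) (hp0 : 0 < p') (hp1 : p' ≤ 1) (hqp : q ≤ p') :
    ∑ W : Finset X, wt p' W * cost q ((frags HH W).filter (fun T => m0 ≤ T.card)) ≤
      2 ^ l * (q / p') ^ m0 := by
  set x : ℝ := q / p' with hx
  have hx0 : 0 ≤ x := div_nonneg hq hp0.le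
  have hx1 : x ≤ 1 := (div_le_one hp0).mpr hqp
  have hqx : q = p' * x := by rw [hx]; field_simp
  set g : Finset X × Finset X → ℝ := fun y => wt p' y.1 * x ^ y.2.card with hg
  have hg0 : ∀ y, 0 ≤ g y := fun y => mul_nonneg (wt_nonneg hp0.le hp1 _) (pow_nonneg hx0 _)
  set A : Finset (Finset X × Finset X) :=
    (Finset.univ ×ˢ Finset.univ).filter (fun y => IsFrag HH y.1 y.2 ∧ m0 ≤ y.2.card) with hA
  set B : Finset (Finset X × Finset X) :=
    (Finset.univ ×ˢ Finset.univ).filter (fun y => y.2 ⊆ chi HH y.1 ∧ m0 ≤ y.2.card) with hB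
  set io : Finset X × Finset X → Finset X × Finset X := fun y => (y.1 ∪ y.2, y.2) with hio
  -- step 0 : rewrite the left side as a sum over `A`
  have h0 : ∑ W : Finset X, wt p' W * cost q ((frags HH W).filter (fun T => m0 ≤ T.card)) =
      ∑ y ∈ A, wt p' y.1 * q ^ y.2.card := by
    rw [hA, Finset.sum_filter, Finset.sum_product]
    apply Finset.sum_congr rfl
    intro W _
    unfold cost
    rw [Finset.mul_sum, frags, Finset.filter_filter, Finset.sum_filter]
  -- step 1 : termwise bound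
  have h1 : ∑ y ∈ A, wt p' y.1 * q ^ y.2.card ≤ ∑ y ∈ A, g (io y) := by
    apply Finset.sum_le_sum
    intro y hy
    rw [hA, Finset.mem_filter] at hy
    have hd := hy.2.1.1
    have := wt_mul_pow_le hp0.le hp1 hd
    simp only [hg, hio]
    rw [hqx, mul_pow, ← mul_assoc]
    exact mul_le_mul_of_nonneg_right this (pow_nonneg hx0 _)
  -- step 2 : injectivity
  have hinj : Set.InjOn io (A : Set (Finset X × Finset X)) := by
    intro y hy z hz hyz
    rw [Finset.mem_coe, hA, Finset.mem_filter] at hy hz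
    simp only [hio, Prod.mk.injEq] at hyz
    obtain ⟨e1, e2⟩ := hyz
    have d1 : Disjoint y.1 y.2 := hy.2.1.1.symm
    have d2 : Disjoint z.1 z.2 := hz.2.1.1.symm
    have a1 : (y.1 ∪ y.2) \ y.2 = y.1 := Finset.union_sdiff_cancel_right d1
    have a2 : (z.1 ∪ z.2) \ z.2 = z.1 := Finset.union_sdiff_cancel_right d2
    apply Prod.ext
    · rw [← a1, ← a2, e1, e2]
    · exact e2
  have h2 : ∑ y ∈ A, g (io y) = ∑ z ∈ A.image io, g z := (Finset.sum_image hinj).symm
  have hsub : A.image io ⊆ B := by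
    intro z hz
    rw [Finset.mem_image] at hz
    obtain ⟨y, hy, rfl⟩ := hz
    rw [hA, Finset.mem_filter] at hy
    rw [hB, Finset.mem_filter]
    refine ⟨by simp, ?_, hy.2.2⟩
    have hs := chi_spec hy.2.1.2.1
    exact hy.2.1.2.2 _ hs.1 hs.2
  have h3 : ∑ z ∈ A.image io, g z ≤ ∑ z ∈ B, g z :=
    Finset.sum_le_sum_of_subset_of_nonneg hsub (fun z _ _ => hg0 z)
  -- step 3 : evaluate the sum over `B`
  have h4 : ∑ z ∈ B, g z ≤ ∑ Z : Finset X, wt p' Z * (2 ^ l * x ^ m0) := by
    rw [hB, Finset.sum_filter, Finset.sum_product]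
    apply Finset.sum_le_sum
    intro Z _
    rw [← Finset.sum_filter]
    simp only [hg]
    rw [← Finset.mul_sum]
    apply mul_le_mul_of_nonneg_left _ (wt_nonneg hp0.le hp1 _)
    have hsub2 : (Finset.univ.filter (fun T : Finset X => T ⊆ chi HH Z ∧ m0 ≤ T.card)) ⊆
        (chi HH Z).powerset := by
      intro T hT
      rw [Finset.mem_filter] at hT
      exact Finset.mem_powerset.mpr hT.2.1
    calc ∑ T ∈ Finset.univ.filter (fun T : Finset X => T ⊆ chi HH Z ∧ m0 ≤ T.card), x ^ T.card
        ≤ ∑ T ∈ Finset.univ.filter (fun T : Finset X => T ⊆ chi HH Z ∧ m0 ≤ T.card), x ^ m0 := by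
          apply Finset.sum_le_sum
          intro T hT
          rw [Finset.mem_filter] at hT
          exact pow_le_pow_of_le_one hx0 hx1 hT.2.2
      _ ≤ ∑ T ∈ (chi HH Z).powerset, x ^ m0 :=
          Finset.sum_le_sum_of_subset_of_nonneg hsub2 (fun _ _ _ => pow_nonneg hx0 _)
      _ = 2 ^ (chi HH Z).card * x ^ m0 := by
          rw [Finset.sum_const, Finset.card_powerset, nsmul_eq_mul]; push_cast; ring
      _ ≤ 2 ^ l * x ^ m0 := by
          apply mul_le_mul_of_nonneg_right _ (pow_nonneg hx0 _)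
          exact pow_le_pow_right₀ (by norm_num) (chi_card_le hl Z)
  have h5 : ∑ Z : Finset X, wt p' Z * (2 ^ l * x ^ m0) = 2 ^ l * x ^ m0 := by
    rw [← Finset.sum_mul, sum_wt, one_mul]
  linarith

end Crest.Agent.KK
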