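import Crest.Agent.KK.Bridge

set_option autoImplicit false

/-!
# Copies of a graph in the binomial random graph: spread implies threshold
-/

namespace Crest.Agent.KK

open Finset Crest.CombinatoricsR.RandomGraph
open scoped Classical

variable {n : ℕ} {V : Type} [Fintype V] [DecidableEq V] (H : SimpleGraph V) [DecidableRel H.Adj]

/-- the edge slots used by the image of `H` under the vertex map `σ`. -/
noncomputable def img (σ : V → Fin n) : Finset (EdgeSlot n) :=
  Finset.univ.filter (fun z => ∃ a b, H.Adj a b ∧ z.1 = s(σ a, σ b))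

/-- the injective vertex maps. -/
noncomputable def injs (V : Type) [Fintype V] [DecidableEq V] (n : ℕ) : Finset (V → Fin n) :=
  Finset.univ.filter Function.Injective

/-- the edge sets of the copies of `H` in the complete graph on `Fin n`. -/
noncomputable def copies (n : ℕ) : Finset (Finset (EdgeSlot n)) := (injs V n).image (img H)

lemma mem_img {σ : V → Fin n} {z : EdgeSlot n} :
    z ∈ img H σ ↔ ∃ a b, H.Adj a b ∧ z.1 = s(σ a, σ b) := by
  simp [img]

lemma mem_injs {σ : V → Fin n} : σ ∈ injs V n ↔ Function.Injective σ := by simp [injs]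

lemma graphOf_adj (ω : EdgeSlot n → Bool) (i j : Fin n) :
    (graphOf ω).Adj i j ↔ ∃ h : ¬ (s(i, j) : Sym2 (Fin n)).IsDiag, ω ⟨s(i, j), h⟩ = true := by
  unfold graphOf
  rw [SimpleGraph.fromEdgeSet_adj]
  constructor
  · rintro ⟨h, _⟩; exact h
  · rintro ⟨h, hω⟩
    exact ⟨⟨h, hω⟩, fun hij => h (by simpa using hij)⟩

lemma isContained_iff (ω : EdgeSlot n → Bool) :
    H.IsContained (graphOf ω) ↔ Succ (copies H n) (supp ω) := by
  rw [SimpleGraph.isContained_iff_exists_le_comap]
  constructor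
  · rintro ⟨f, hf⟩
    refine ⟨img H f, Finset.mem_image.mpr ⟨f, mem_injs.mpr f.injective, rfl⟩, ?_⟩
    intro z hz
    obtain ⟨a, b, hab, hz⟩ := (mem_img H).mp hz
    have h1 : (graphOf ω).Adj (f a) (f b) := hf hab
    obtain ⟨h, hω⟩ := (graphOf_adj ω _ _).mp h1
    have : z = ⟨s(f a, f b), h⟩ := Subtype.ext hz
    rw [mem_supp, this]
    exact hω
  · rintro ⟨S, hS, hSω⟩
    obtain ⟨σ, hσ, rfl⟩ := Finset.mem_image.mp hS
    have hinj := mem_injs.mp hσ
    refine ⟨⟨σ, hinj⟩, ?_⟩
    intro a b hab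
    show (graphOf ω).Adj (σ a) (σ b)
    rw [graphOf_adj]
    have hne : σ a ≠ σ b := fun h => hab.ne (hinj h)
    have hd : ¬ (s(σ a, σ b) : Sym2 (Fin n)).IsDiag := by simpa using hne
    refine ⟨hd, ?_⟩
    have hmem : (⟨s(σ a, σ b), hd⟩ : EdgeSlot n) ∈ img H σ := (mem_img H).mpr ⟨a, b, hab, rfl⟩
    exact mem_supp.mp (hSω hmem)

lemma card_img_le (σ : V → Fin n) : (img H σ).card ≤ H.edgeFinset.card := by
  calc (img H σ).card ≤ (H.edgeFinset.image (Sym2.map σ)).card := by
        apply Finset.card_le_card_of_injOn (fun z => z.1)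
        · intro z hz
          obtain ⟨a, b, hab, hz⟩ := (mem_img H).mp hz
          rw [Finset.mem_coe, Finset.mem_image]
          refine ⟨s(a, b), ?_, ?_⟩
          · rw [SimpleGraph.mem_edgeFinset, SimpleGraph.mem_edgeSet]; exact hab
          · show Sym2.map σ s(a, b) = z.1
            rw [hz]; rfl
        · intro z _ z' _ h
          exact Subtype.ext h
    _ ≤ H.edgeFinset.card := Finset.card_image_le

lemma injs_nonempty (hV : Fintype.card V ≤ n) : (injs V n).Nonempty := by
  have : Fintype.card V ≤ Fintype.card (Fin n) := by simpa using hV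
  obtain ⟨f⟩ := Function.Embedding.nonempty_of_card_le this
  exact ⟨f, mem_injs.mpr f.injective⟩

/-- a spread bound for the uniform measure on the copies gives a lower bound for all covers. -/
lemma cover_of_spread (hV : Fintype.card V ≤ n) {q : ℝ} (hq : 0 ≤ q)
    (hGL : ∀ U : Finset (EdgeSlot n),
      (((injs V n).filter (fun σ => U ⊆ img H σ)).card : ℝ) ≤ q ^ U.card * (injs V n).card)
    (GG : Finset (Finset (EdgeSlot n))) (hc : Covers GG (copies H n)) : 1 ≤ cost q GG := by
  have hM : 0 < ((injs V n).card : ℝ) := by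
    exact_mod_cast Finset.card_pos.mpr (injs_nonempty hV)
  have h1 : (injs V n) ⊆ GG.biUnion (fun U => (injs V n).filter (fun σ => U ⊆ img H σ)) := by
    intro σ hσ
    obtain ⟨U, hU, hUσ⟩ := hc (img H σ) (Finset.mem_image.mpr ⟨σ, hσ, rfl⟩)
    exact Finset.mem_biUnion.mpr ⟨U, hU, Finset.mem_filter.mpr ⟨hσ, hUσ⟩⟩
  have h2 : (injs V n).card ≤ ∑ U ∈ GG, ((injs V n).filter (fun σ => U ⊆ img H σ)).card :=
    (Finset.card_le_card h1).trans Finset.card_biUnion_le
  have h3 : ((injs V n).card : ℝ) ≤ ∑ U ∈ GG, q ^ U.card * (injs V n).card := by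
    calc ((injs V n).card : ℝ)
        ≤ ((∑ U ∈ GG, ((injs V n).filter (fun σ => U ⊆ img H σ)).card : ℕ) : ℝ) := by
          exact_mod_cast h2
      _ = ∑ U ∈ GG, (((injs V n).filter (fun σ => U ⊆ img H σ)).card : ℝ) := by push_cast; rfl
      _ ≤ ∑ U ∈ GG, q ^ U.card * (injs V n).card := Finset.sum_le_sum (fun U _ => hGL U)
  rw [← Finset.sum_mul] at h3
  unfold cost
  by_contra hlt
  push_neg at hlt
  have := mul_lt_mul_of_pos_right hlt hM
  linarith

/-- **Spread implies threshold.** -/
theorem threshold_of_spread (hV : Fintype.card V ≤ n) (hH : 1 ≤ H.edgeFinset.card)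
    {q : ℝ} (hq : 0 ≤ q)
    (hGL : ∀ U : Finset (EdgeSlot n),
      (((injs V n).filter (fun σ => U ⊆ img H σ)).card : ℝ) ≤ q ^ U.card * (injs V n).card) :
    (1 : ℝ) / 2 ≤ gnpProb n (min 1 (2048 * q * (1 + Real.logb 2 (H.edgeFinset.card : ℝ))))
      {G | H.IsContained G} := by
  have h := pp_main (copies H n) H.edgeFinset.card hH
    (by
      intro S hS
      obtain ⟨σ, _, rfl⟩ := Finset.mem_image.mp hS
      exact card_img_le H σ) hq (cover_of_spread H hV hq hGL)
  rw [← bernoulliProb_succ] at h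
  unfold gnpProb
  have e : {ω : EdgeSlot n → Bool | graphOf ω ∈ {G | H.IsContained G}} =
      {ω : EdgeSlot n → Bool | Succ (copies H n) (supp ω)} := by
    ext ω
    exact isContained_iff H ω
  rw [e]
  convert h

end Crest.Agent.KK
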