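import Crest.Agent.KK.Frag

set_option autoImplicit false

/-!
# The Park--Pham theorem in the binomial model, with explicit constants
-/

namespace Crest.Agent.KK

open Finset
open scoped Classical

variable {X : Type*} [DecidableEq X] [Fintype X]

/-- the probability that a `t`-binomial subset contains a member of `HH`. -/
noncomputable def prS (HH : Finset (Finset X)) (t : ℝ) : ℝ :=
  ∑ W : Finset X, wt t W * (if Succ HH W then 1 else 0)

lemma prS_nonneg (HH : Finset (Finset X)) {t : ℝ} (h0 : 0 ≤ t) (h1 : t ≤ 1) : 0 ≤ prS HH t := by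
  unfold prS
  apply Finset.sum_nonneg
  intro W _
  apply mul_nonneg (wt_nonneg h0 h1 W)
  split_ifs <;> norm_num

lemma prS_of_empty_mem {HH : Finset (Finset X)} (h : ∅ ∈ HH) (t : ℝ) : prS HH t = 1 := by
  unfold prS
  have : ∀ W : Finset X, Succ HH W := fun W => ⟨∅, h, Finset.empty_subset _⟩
  simp only [this, if_true, mul_one]
  exact sum_wt t

lemma cost_union_le {q : ℝ} (hq : 0 ≤ q) (A B : Finset (Finset X)) :
    cost q (A ∪ B) ≤ cost q A + cost q B := by
  unfold cost
  have h := Finset.sum_union_inter (s₁ := A) (s₂ := B) (f := fun U : Finset X => q ^ U.card)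
  have h2 : 0 ≤ ∑ U ∈ A ∩ B, q ^ U.card := Finset.sum_nonneg (fun _ _ => pow_nonneg hq _)
  linarith

/-- monotonicity in the density. -/
lemma prS_mono (HH : Finset (Finset X)) {s t : ℝ} (h0 : 0 ≤ s) (hst : s ≤ t) (h1 : t ≤ 1) :
    prS HH s ≤ prS HH t := by
  rcases eq_or_lt_of_le (hst.trans h1) with hs1 | hs1
  · have : t = s := le_antisymm (by rw [hs1]; exact h1) hst
    rw [this]
  · set u : ℝ := (t - s) / (1 - s) with hu
    have hpos : 0 < 1 - s := by linarith
    have hu0 : 0 ≤ u := div_nonneg (by linarith) hpos.le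
    have hu1 : u ≤ 1 := (div_le_one hpos).mpr (by linarith)
    have ht : 1 - (1 - s) * (1 - u) = t := by
      rw [hu]; field_simp; ring
    have h := sum_union s u (fun Z : Finset X => if Succ HH Z then (1 : ℝ) else 0)
    rw [ht] at h
    unfold prS
    rw [← h]
    apply Finset.sum_le_sum
    intro W _
    have e : wt s W * (if Succ HH W then (1 : ℝ) else 0) =
        ∑ W' : Finset X, wt s W * wt u W' * (if Succ HH W then (1 : ℝ) else 0) := by
      rw [← Finset.sum_mul, ← Finset.mul_sum, sum_wt, mul_one]
    rw [e]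
    apply Finset.sum_le_sum
    intro W' _
    apply mul_le_mul_of_nonneg_left _ (mul_nonneg (wt_nonneg h0 hs1.le W) (wt_nonneg hu0 hu1 W'))
    by_cases hS : Succ HH W
    · have : Succ HH (W ∪ W') := hS.mono Finset.subset_union_left
      simp [hS, this]
    · simp only [hS, if_false]
      split_ifs <;> norm_num

/-- **Park--Pham induction.** -/
theorem pp_ind {q p' : ℝ} (hq : 0 ≤ q) (hp0 : 0 < p') (hp1 : p' ≤ 1) (hqp : q ≤ p') (k : ℕ) :
    ∀ (HH : Finset (Finset X)) (c : ℝ), (∀ S ∈ HH, S.card < 2 ^ k) →
      (∀ GG : Finset (Finset X), Covers GG HH → c ≤ cost q GG) →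
      c - ∑ j ∈ Finset.range k, (4 * (q / p')) ^ (2 ^ j) ≤ prS HH (1 - (1 - p') ^ k) := by
  induction k with
  | zero =>
    intro HH c hsz hcov
    simp only [Finset.range_zero, Finset.sum_empty, sub_zero, pow_zero, sub_self]
    by_cases hne : HH = ∅
    · have h1 : c ≤ cost q (∅ : Finset (Finset X)) := hcov ∅ (by intro S hS; simp [hne] at hS)
      have h2 : cost q (∅ : Finset (Finset X)) = 0 := by simp [cost]
      have h3 := prS_nonneg HH (le_refl (0 : ℝ)) zero_le_one
      linarith
    · obtain ⟨S, hS⟩ := Finset.nonempty_iff_ne_empty.mpr hne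
      have hS0 : S = ∅ := by
        have := hsz S hS
        simp only [pow_zero, Nat.lt_one_iff, Finset.card_eq_zero] at this
        exact this
      have hmem : (∅ : Finset X) ∈ HH := hS0 ▸ hS
      rw [prS_of_empty_mem hmem]
      have h1 : c ≤ cost q ({∅} : Finset (Finset X)) :=
        hcov {∅} (by intro S _; exact ⟨∅, by simp, Finset.empty_subset _⟩)
      have h2 : cost q ({∅} : Finset (Finset X)) = 1 := by simp [cost]
      linarith
  | succ k ih =>
    intro HH c hsz hcov
    set x : ℝ := q / p' with hx
    set tk : ℝ := 1 - (1 - p') ^ k with htk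
    set eps : ℝ := ∑ j ∈ Finset.range k, (4 * x) ^ (2 ^ j) with heps
    have h1p : 0 ≤ 1 - p' := by linarith
    have h1p1 : 1 - p' ≤ 1 := by linarith
    have htk0 : 0 ≤ tk := by
      have := pow_le_one₀ h1p h1p1 (n := k)
      rw [htk]; linarith
    have htk1 : tk ≤ 1 := by
      have := pow_nonneg h1p k
      rw [htk]; linarith
    set G1 : Finset X → Finset (Finset X) :=
      fun W => (frags HH W).filter (fun T => 2 ^ k ≤ T.card) with hG1
    set H1 : Finset X → Finset (Finset X) :=
      fun W => (frags HH W).filter (fun T => T.card < 2 ^ k) with hH1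
    -- the induction hypothesis for every `W`
    have key : ∀ W : Finset X, c - cost q (G1 W) - eps ≤ prS (H1 W) tk := by
      intro W
      apply ih (H1 W) (c - cost q (G1 W))
      · intro S hS
        rw [hH1] at hS
        exact (Finset.mem_filter.mp hS).2
      · intro GG hGG
        have hc : Covers (GG ∪ G1 W) HH := by
          intro S hS
          obtain ⟨T, hT, hTS⟩ := exists_frag HH W hS
          by_cases hcard : T.card < 2 ^ k
          · have hmem : T ∈ H1 W := by
              rw [hH1]; exact Finset.mem_filter.mpr ⟨mem_frags.mpr hT, hcard⟩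
            obtain ⟨U, hU, hUT⟩ := hGG T hmem
            exact ⟨U, Finset.mem_union_left _ hU, hUT.trans hTS⟩
          · have hmem : T ∈ G1 W := by
              rw [hG1]; exact Finset.mem_filter.mpr ⟨mem_frags.mpr hT, not_lt.mp hcard⟩
            exact ⟨T, Finset.mem_union_right _ hmem, hTS⟩
        have h1 := hcov _ hc
        have h2 := cost_union_le hq GG (G1 W)
        linarith
    -- average over `W`
    have havg : ∑ W : Finset X, wt p' W * (c - cost q (G1 W) - eps) ≤
        ∑ W : Finset X, wt p' W * prS (H1 W) tk :=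
      Finset.sum_le_sum (fun W _ => mul_le_mul_of_nonneg_left (key W) (wt_nonneg hp0.le hp1 W))
    have hleft : ∑ W : Finset X, wt p' W * (c - cost q (G1 W) - eps) =
        c - eps - ∑ W : Finset X, wt p' W * cost q (G1 W) := by
      have : ∀ W : Finset X, wt p' W * (c - cost q (G1 W) - eps) =
          wt p' W * (c - eps) - wt p' W * cost q (G1 W) := fun W => by ring
      simp only [this]
      rw [Finset.sum_sub_distrib, ← Finset.sum_mul, sum_wt, one_mul]
    have hfc : ∑ W : Finset X, wt p' W * cost q (G1 W) ≤ (4 * x) ^ (2 ^ k) := by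
      have h := frag_cost HH (2 ^ (k + 1)) (2 ^ k) (fun S hS => (hsz S hS).le) hq hp0 hp1 hqp
      have e : (2 : ℝ) ^ (2 ^ (k + 1)) * (q / p') ^ (2 ^ k) = (4 * x) ^ (2 ^ k) := by
        rw [mul_pow, pow_succ 2 k, pow_mul', hx]
        norm_num
      rw [e] at h
      exact h
    have hright : ∑ W : Finset X, wt p' W * prS (H1 W) tk ≤ prS HH (1 - (1 - p') ^ (k + 1)) := by
      have h := sum_union p' tk (fun Z : Finset X => if Succ HH Z then (1 : ℝ) else 0)
      have e : 1 - (1 - p') * (1 - tk) = 1 - (1 - p') ^ (k + 1) := by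
        rw [htk]; ring
      rw [e] at h
      unfold prS
      rw [← h]
      apply Finset.sum_le_sum
      intro W _
      rw [Finset.mul_sum]
      apply Finset.sum_le_sum
      intro W' _
      rw [← mul_assoc]
      apply mul_le_mul_of_nonneg_left _
        (mul_nonneg (wt_nonneg hp0.le hp1 W) (wt_nonneg htk0 htk1 W'))
      by_cases hS : Succ (H1 W) W'
      · have : Succ HH (W ∪ W') := by
          obtain ⟨T, hT, hTW⟩ := hS
          rw [hH1] at hT
          have hf := mem_frags.mp (Finset.mem_filter.mp hT).1
          exact hf.2.1.mono (Finset.union_subset_union_right hTW)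
        simp [hS, this]
      · simp only [hS, if_false]
        split_ifs <;> norm_num
    rw [Finset.sum_range_succ]
    linarith

end Crest.Agent.KK
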