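import Crest.Agent.KK.Expect

set_option autoImplicit false

/-!
# S0076 reduced to a purely combinatorial spread lemma

`SpreadCore` is a statement about injective maps `V → Fin n` only (no probability): if for every set `E'` of edges of `H`
the number of distinct images of `E'` in the complete graph on `Fin n`, times `p ^ |E'|`, is at least `1/2`, then the
uniform measure on the copies of `H` is `e^50 p`-spread.  It is NOT proved here.
-/

namespace Crest.Agent.KK

open Finset Crest.CombinatoricsR.RandomGraph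
open scoped Classical

/-- the missing combinatorial lemma (the "spread lemma" GL). -/
def SpreadCore : Prop :=
  ∀ (n : ℕ) (V : Type) [Fintype V] [DecidableEq V] (H : SimpleGraph V) [DecidableRel H.Adj],
    Fintype.card V ≤ n → ∀ p : ℝ, 0 ≤ p → p ≤ 1 →
    (∀ E' : Finset (Sym2 V), E' ⊆ H.edgeFinset →
      (1 : ℝ) / 2 ≤ (((injs V n).image (imgE E')).card : ℝ) * p ^ E'.card) →
    ∀ U : Finset (EdgeSlot n),
      (((injs V n).filter (fun σ => U ⊆ img H σ)).card : ℝ) ≤
        (Real.exp 50 * p) ^ U.card * (injs V n).card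

/-- S0076 follows from `SpreadCore`. -/
theorem s0076_of_spreadCore (hcore : SpreadCore)
    (n : ℕ) (W : Type) [Fintype W] [DecidableEq W] (H : SimpleGraph W)
    [DecidableRel H.Adj] (hW : Fintype.card W ≤ n) (hH : 1 ≤ H.edgeFinset.card)
    (p : ℝ) (hp0 : 0 ≤ p) (hp1 : p ≤ 1)
    (hE : ∀ F : H.Subgraph, (1 : ℝ) / 2 ≤
      gnpExpect n p (fun G => (G.copyCount F.coe : ℝ))) :
    (1 : ℝ) / 2 ≤ gnpProb n
      (min 1 (2048 * Real.exp 50 * p * (1 + Real.logb 2 (H.edgeFinset.card : ℝ))))
      {G | H.IsContained G} := by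
  have hyp : ∀ E' : Finset (Sym2 W), E' ⊆ H.edgeFinset →
      (1 : ℝ) / 2 ≤ (((injs W n).image (imgE E')).card : ℝ) * p ^ E'.card := by
    intro E' hE'
    exact (hE (subOf H E' hE')).trans (expect_le H hW hp0 hp1 E' hE')
  have hGL := hcore n W H hW p hp0 hp1 hyp
  have hq : 0 ≤ Real.exp 50 * p := mul_nonneg (Real.exp_pos 50).le hp0
  have h := threshold_of_spread H hW hH hq hGL
  have e : 2048 * (Real.exp 50 * p) * (1 + Real.logb 2 (H.edgeFinset.card : ℝ)) =
      2048 * Real.exp 50 * p * (1 + Real.logb 2 (H.edgeFinset.card : ℝ)) := by ring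
  rw [e] at h
  exact h

end Crest.Agent.KK
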