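import Crest.Agent.KK.Main

set_option autoImplicit false

/-!
# Park--Pham with the constants `2048` and `1 + log₂ l`
-/

namespace Crest.Agent.KK

open Finset
open scoped Classical

variable {X : Type*} [DecidableEq X] [Fintype X]

lemma geom_aux (k : ℕ) :
    ∑ j ∈ Finset.range k, ((1 : ℝ) / 512) ^ (j + 1) + ((1 : ℝ) / 512) ^ k / 511 = 1 / 511 := by
  induction k with
  | zero => simp
  | succ k ih =>
    rw [Finset.sum_range_succ]
    have : ((1 : ℝ) / 512) ^ (k + 1) + ((1 : ℝ) / 512) ^ (k + 1) / 511 = ((1 : ℝ) / 512) ^ k / 511 := by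
      rw [pow_succ]; ring
    linarith

lemma eps_bound (k : ℕ) : ∑ j ∈ Finset.range k, ((1 : ℝ) / 512) ^ (2 ^ j) ≤ 1 / 256 := by
  have h1 : ∑ j ∈ Finset.range k, ((1 : ℝ) / 512) ^ (2 ^ j) ≤
      ∑ j ∈ Finset.range k, ((1 : ℝ) / 512) ^ (j + 1) := by
    apply Finset.sum_le_sum
    intro j _
    apply pow_le_pow_of_le_one (by norm_num) (by norm_num)
    exact Nat.lt_two_pow_self
  have h2 := geom_aux k
  have h3 : (0 : ℝ) ≤ ((1 : ℝ) / 512) ^ k / 511 := by positivity
  have h4 : (1 : ℝ) / 511 ≤ 1 / 256 := by norm_num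
  linarith

lemma prS_one {HH : Finset (Finset X)} (hne : HH.Nonempty) : 1 ≤ prS HH 1 := by
  unfold prS
  have hs : Succ HH (Finset.univ : Finset X) := by
    obtain ⟨S, hS⟩ := hne
    exact ⟨S, hS, Finset.subset_univ _⟩
  have h1 : wt 1 (Finset.univ : Finset X) * (if Succ HH (Finset.univ : Finset X) then (1 : ℝ) else 0)
      ≤ ∑ W : Finset X, wt 1 W * (if Succ HH W then (1 : ℝ) else 0) := by
    apply Finset.single_le_sum (f := fun W : Finset X => wt 1 W * (if Succ HH W then (1 : ℝ) else 0))
    · intro W _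
      apply mul_nonneg (wt_nonneg zero_le_one le_rfl W)
      split_ifs <;> norm_num
    · exact Finset.mem_univ _
  have h2 : wt 1 (Finset.univ : Finset X) = 1 := by
    unfold wt; simp
  rw [h2, if_pos hs] at h1
  linarith

/-- **Park--Pham theorem**, binomial model, explicit constants. -/
theorem pp_main (HH : Finset (Finset X)) (l : ℕ) (hl1 : 1 ≤ l) (hl : ∀ S ∈ HH, S.card ≤ l)
    {q : ℝ} (hq : 0 ≤ q) (hcov : ∀ GG : Finset (Finset X), Covers GG HH → 1 ≤ cost q GG) :
    1 / 2 ≤ prS HH (min 1 (2048 * q * (1 + Real.logb 2 l))) := by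
  by_cases hem : (∅ : Finset X) ∈ HH
  · rw [prS_of_empty_mem hem]; norm_num
  have hne : HH.Nonempty := by
    by_contra h
    rw [Finset.not_nonempty_iff_eq_empty] at h
    have h1 := hcov ∅ (by intro S hS; simp [h] at hS)
    simp [cost] at h1
    linarith
  have hq0 : 0 < q := by
    rcases eq_or_lt_of_le hq with h | h
    · exfalso
      have h1 := hcov HH (fun S hS => ⟨S, hS, subset_rfl⟩)
      have h2 : cost q HH = 0 := by
        unfold cost
        apply Finset.sum_eq_zero
        intro U hU
        have hU0 : U.card ≠ 0 := by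
          intro h0
          rw [Finset.card_eq_zero] at h0
          exact hem (h0 ▸ hU)
        rw [← h, zero_pow hU0]
      linarith
    · exact h
  have hlog : 0 ≤ Real.logb 2 l := by
    apply Real.logb_nonneg (by norm_num)
    exact_mod_cast hl1
  set D : ℝ := 2048 * q * (1 + Real.logb 2 l) with hD
  rcases le_or_gt 1 D with h1D | hD1
  · rw [min_eq_left h1D]
    have := prS_one hne
    linarith
  · rw [min_eq_right hD1.le]
    set p' : ℝ := 2048 * q with hp'
    have hp0 : 0 < p' := by positivity
    have hp'D : p' ≤ D := by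
      rw [hD]; nlinarith
    have hp1 : p' ≤ 1 := by linarith
    have hqp : q ≤ p' := by rw [hp']; linarith
    set k : ℕ := Nat.log 2 l + 1 with hk
    have hsz : ∀ S ∈ HH, S.card < 2 ^ k := by
      intro S hS
      exact lt_of_le_of_lt (hl S hS) (Nat.lt_pow_succ_log_self (by norm_num) l)
    have h := pp_ind hq hp0 hp1 hqp k HH 1 hsz hcov
    have hx : 4 * (q / p') = 1 / 512 := by
      rw [hp']; field_simp; norm_num
    rw [hx] at h
    have he := eps_bound k
    have hbern : 1 - (1 - p') ^ k ≤ D := by
      have hb := one_add_mul_le_pow (a := -p') (by linarith) k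
      have hk2 : (k : ℝ) ≤ 1 + Real.logb 2 l := by
        rw [hk]; push_cast
        have := Real.natLog_le_logb l 2
        push_cast at this
        linarith
      have e : (1 : ℝ) + -p' = 1 - p' := by ring
      rw [e] at hb
      have : (k : ℝ) * p' ≤ D := by
        rw [hD, hp']
        have := mul_le_mul_of_nonneg_right hk2 hp0.le
        rw [hp'] at this
        linarith
      linarith
    have h0 : 0 ≤ 1 - (1 - p') ^ k := by
      have := pow_le_one₀ (n := k) (by linarith : (0 : ℝ) ≤ 1 - p') (by linarith)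
      linarith
    have hm := prS_mono HH h0 hbern hD1.le
    linarith

end Crest.Agent.KK
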