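import Mathlib

set_option autoImplicit false

/-!
# Product (binomial) weights on the subsets of a finite type

`wt p W` is the probability of the subset `W` when every point is kept independently with
probability `p`.  Main facts: total mass one, the union of two independent binomial subsets is
binomial, monotonicity of the probability of an increasing event.
-/

namespace Crest.Agent.KK

open Finset

variable {X : Type*} [DecidableEq X]

/-- product weight relative to a finite ground set `s`. -/
noncomputable def wtS (s : Finset X) (p : ℝ) (W : Finset X) : ℝ :=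
  ∏ x ∈ s, if x ∈ W then p else 1 - p

lemma wtS_insert_of_notMem {s : Finset X} {a : X} (ha : a ∉ s) (p : ℝ) {W : Finset X}
    (hW : W ⊆ s) : wtS (insert a s) p W = (1 - p) * wtS s p W := by
  unfold wtS
  rw [Finset.prod_insert ha]
  have : a ∉ W := fun h => ha (hW h)
  simp [this]

lemma wtS_insert_insert {s : Finset X} {a : X} (ha : a ∉ s) (p : ℝ) (W : Finset X) :
    wtS (insert a s) p (insert a W) = p * wtS s p W := by
  unfold wtS
  rw [Finset.prod_insert ha]
  simp only [Finset.mem_insert, true_or, if_true]
  congr 1
  apply Finset.prod_congr rfl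
  intro x hx
  have : x ≠ a := fun h => ha (h ▸ hx)
  simp [this]

lemma union_aux (p r : ℝ) (s : Finset X) : ∀ f : Finset X → ℝ,
    ∑ W ∈ s.powerset, ∑ W' ∈ s.powerset, wtS s p W * wtS s r W' * f (W ∪ W') =
      ∑ Z ∈ s.powerset, wtS s (1 - (1 - p) * (1 - r)) Z * f Z := by
  induction s using Finset.induction_on with
  | empty => intro f; simp [wtS]
  | insert a s ha ih =>
    intro f
    have h1 := ih f
    have h2 := ih (fun Z => f (insert a Z))
    rw [Finset.sum_powerset_insert ha, Finset.sum_powerset_insert ha]
    have e1 : ∑ W ∈ s.powerset, ∑ W' ∈ (insert a s).powerset,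
        wtS (insert a s) p W * wtS (insert a s) r W' * f (W ∪ W') =
        (1 - p) * (1 - r) * (∑ W ∈ s.powerset, ∑ W' ∈ s.powerset, wtS s p W * wtS s r W' * f (W ∪ W'))
        + (1 - p) * r * (∑ W ∈ s.powerset, ∑ W' ∈ s.powerset,
            wtS s p W * wtS s r W' * f (insert a (W ∪ W'))) := by
      rw [Finset.mul_sum, Finset.mul_sum, ← Finset.sum_add_distrib]
      apply Finset.sum_congr rfl
      intro W hW
      rw [Finset.sum_powerset_insert ha, Finset.mul_sum, Finset.mul_sum]
      congr 1
      · apply Finset.sum_congr rfl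
        intro W' hW'
        rw [wtS_insert_of_notMem ha p (Finset.mem_powerset.mp hW),
          wtS_insert_of_notMem ha r (Finset.mem_powerset.mp hW')]
        ring
      · apply Finset.sum_congr rfl
        intro W' hW'
        rw [wtS_insert_of_notMem ha p (Finset.mem_powerset.mp hW), wtS_insert_insert ha r W',
          Finset.union_insert]
        ring
    have e2 : ∑ W ∈ s.powerset, ∑ W' ∈ (insert a s).powerset,
        wtS (insert a s) p (insert a W) * wtS (insert a s) r W' * f (insert a W ∪ W') =
        (p * (1 - r) + p * r) * (∑ W ∈ s.powerset, ∑ W' ∈ s.powerset,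
            wtS s p W * wtS s r W' * f (insert a (W ∪ W'))) := by
      rw [Finset.mul_sum]
      apply Finset.sum_congr rfl
      intro W hW
      rw [Finset.sum_powerset_insert ha, Finset.mul_sum, ← Finset.sum_add_distrib]
      apply Finset.sum_congr rfl
      intro W' hW'
      rw [wtS_insert_insert ha p W, wtS_insert_of_notMem ha r (Finset.mem_powerset.mp hW'),
        wtS_insert_insert ha r W', Finset.insert_union, Finset.union_insert, Finset.insert_union,
        Finset.insert_idem]
      ring
    have e3 : ∑ Z ∈ s.powerset, wtS (insert a s) (1 - (1 - p) * (1 - r)) Z * f Z =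
        (1 - p) * (1 - r) * ∑ Z ∈ s.powerset, wtS s (1 - (1 - p) * (1 - r)) Z * f Z := by
      rw [Finset.mul_sum]
      apply Finset.sum_congr rfl
      intro Z hZ
      rw [wtS_insert_of_notMem ha _ (Finset.mem_powerset.mp hZ)]
      ring
    have e4 : ∑ Z ∈ s.powerset, wtS (insert a s) (1 - (1 - p) * (1 - r)) (insert a Z) * f (insert a Z) =
        (1 - (1 - p) * (1 - r)) * ∑ Z ∈ s.powerset, wtS s (1 - (1 - p) * (1 - r)) Z * f (insert a Z) := by
      rw [Finset.mul_sum]
      apply Finset.sum_congr rfl
      intro Z hZ
      rw [wtS_insert_insert ha]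
      ring
    rw [e1, e2, e3, e4, h1, h2]
    ring

variable [Fintype X]

/-- the weight of the subset `W` of the finite type `X` for the `p`-biased product measure. -/
noncomputable def wt (p : ℝ) (W : Finset X) : ℝ := ∏ x : X, if x ∈ W then p else 1 - p

lemma wt_eq_wtS (p : ℝ) (W : Finset X) : wt p W = wtS Finset.univ p W := rfl

lemma wt_eq_pow (p : ℝ) (W : Finset X) :
    wt p W = p ^ W.card * (1 - p) ^ (Fintype.card X - W.card) := by
  unfold wt
  rw [Finset.prod_ite, Finset.prod_const, Finset.prod_const]
  congr 2
  · congr 1; ext x; simp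
  · rw [Finset.filter_not, Finset.card_sdiff_of_subset (Finset.filter_subset _ _), Finset.card_univ]
    congr 2; ext x; simp

lemma wt_nonneg {p : ℝ} (h0 : 0 ≤ p) (h1 : p ≤ 1) (W : Finset X) : 0 ≤ wt p W := by
  unfold wt
  apply Finset.prod_nonneg
  intro x _
  split_ifs
  · exact h0
  · linarith

lemma sum_wt (p : ℝ) : ∑ W : Finset X, wt p W = 1 := by
  have h := Finset.sum_pow_mul_eq_add_pow p (1 - p) (Finset.univ : Finset X)
  rw [Finset.powerset_univ] at h
  simp only [wt_eq_pow, ← Finset.card_univ]
  rw [h]; simp

/-- union of two independent binomial subsets is binomial. -/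
lemma sum_union (p r : ℝ) (f : Finset X → ℝ) :
    ∑ W : Finset X, ∑ W' : Finset X, wt p W * wt r W' * f (W ∪ W') =
      ∑ Z : Finset X, wt (1 - (1 - p) * (1 - r)) Z * f Z := by
  have h := union_aux p r (Finset.univ : Finset X) f
  rw [Finset.powerset_univ] at h
  exact h

/-- moving `T` (disjoint from `W`) into the sample costs a factor `p ^ |T|`. -/
lemma wt_mul_pow_le {p : ℝ} (h0 : 0 ≤ p) (h1 : p ≤ 1) {W T : Finset X} (hd : Disjoint T W) :
    wt p W * p ^ T.card ≤ wt p (W ∪ T) := by
  have hc : (W ∪ T).card = W.card + T.card := Finset.card_union_of_disjoint hd.symm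
  have hle : W.card + T.card ≤ Fintype.card X := hc ▸ Finset.card_le_univ _
  rw [wt_eq_pow, wt_eq_pow, hc]
  have h2 : Fintype.card X - W.card = (Fintype.card X - (W.card + T.card)) + T.card := by omega
  rw [h2, pow_add, pow_add]
  have hq : 0 ≤ 1 - p := by linarith
  have hq1 : (1 - p) ^ T.card ≤ 1 := pow_le_one₀ hq (by linarith)
  have hnn : 0 ≤ p ^ W.card * p ^ T.card * (1 - p) ^ (Fintype.card X - (W.card + T.card)) := by
    positivity
  nlinarith [mul_le_mul_of_nonneg_left hq1 hnn]

end Crest.Agent.KK
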